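import Vale.Agent.P112.H818.Dep2
import Vale.Agent.P112.H22.Col
import Vale.Agent.P112.H141.DepthM

/-!
# [DEPTH], part 3: equal levels, colours, the theorem
-/

open MeasureTheory Set
open scoped ENNReal

namespace Vale.Agent.P112.H818

variable {P ι : Type} {D : TD P ι} {u : ℝ × ℝ → ℝ} {τ e A h κ Q η Y : ℝ} {M1 N6 N7 w d : ℕ}

/-- two tiles of the same level which meet with slopes closer than `Q 2 ^ lv` -/
structure TD.Eq (D : TD P ι) (τ η Q : ℝ) (p p' : P) : Prop where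
  tr : D.tr p' ≠ D.tr p
  lv : D.lv p' = D.lv p
  meet : D.Meet τ η p p' ∨ D.Meet τ η p' p
  cls : |D.sl p - D.sl p'| < Q * 2 ^ D.lv p

/-- geometry of two tiles of the same level -/
theorem eq_geo (H : Hyp D u τ e A h κ Q η Y M1 N6 N7 w d) {p p' : P} (hp : D.Eq τ η Q p p')
    {x : ℝ} (hx : T.q τ (D.lv p') x = D.cl p') :
    |x - D.L τ p| ≤ 7 / 2 ^ D.lv p ∧ 2 * (h + |D.ln p' x - D.ln p x|) ≤ Y := by
  have hlv := hp.lv
  have hcx := cell_L hx
  have hQ := H.Q_one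
  have hη := H.η_nonneg
  have hpos : (0 : ℝ) < 2 ^ D.lv p := by positivity
  have hl0 : (0 : ℝ) < 1 / 2 ^ D.lv p := by positivity
  -- a meeting point
  have hy : ∃ y, |x - y| ≤ 6 * (1 / 2 ^ D.lv p) ∧ |y - D.L τ p| ≤ 5 * (1 / 2 ^ D.lv p) ∧
      |x - D.L τ p| ≤ 7 * (1 / 2 ^ D.lv p) ∧ |D.ln p' y - D.ln p y| ≤ η := by
    rcases hp.meet with ⟨y, h1, h2, h3⟩ | ⟨y, h1, h2, h3⟩
    · have h4 := cell_L h1
      rw [hlv] at h2 hcx
      rw [← mul_one_div] at h2
      rw [abs_sub_comm] at h3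
      refine ⟨y, ?_, ?_, ?_, h3⟩
      · rw [abs_le] at *
        constructor <;> linarith [h2.1, h2.2, hcx.1, hcx.2]
      · linarith
      · rw [abs_le] at *
        constructor <;> linarith [h2.1, h2.2, hcx.1, hcx.2, h4.1, h4.2]
    · have h4 := cell_L h1
      rw [hlv] at h4 hcx
      rw [← mul_one_div] at h2
      refine ⟨y, ?_, h2, ?_, h3⟩
      · rw [abs_le] at *
        constructor <;> linarith [h4.1, h4.2, hcx.1, hcx.2]
      · rw [abs_le] at *
        constructor <;> linarith [h2.1, h2.2, hcx.1, hcx.2, h4.1, h4.2]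
  obtain ⟨y, h1, h2, h3, h4⟩ := hy
  refine ⟨by rw [← mul_one_div]; exact h3, ?_⟩
  have h5 : |(D.sl p' - D.sl p) * (x - y)| ≤ 6 * Q := by
    rw [abs_mul, abs_sub_comm (D.sl p')]
    calc |D.sl p - D.sl p'| * |x - y| ≤ (Q * 2 ^ D.lv p) * (6 * (1 / 2 ^ D.lv p)) :=
          mul_le_mul hp.cls.le h1 (abs_nonneg _) (by positivity)
      _ = 6 * Q := by field_simp
  have h6 : |D.ln p' x - D.ln p x| ≤ η + 6 * Q := by
    rw [ln_sub D _ _ x y]
    exact (abs_add_le _ _).trans (add_le_add h4 h5)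
  have h7 := H.Y_ge
  have h8 : (0 : ℝ) ≤ d * (η + 9 * Q) := by positivity
  nlinarith

/-- the equal level degree -/
theorem eq_deg (H : Hyp D u τ e A h κ Q η Y M1 N6 N7 w d) (p : P) (S : Finset P)
    (hS : ∀ p' ∈ S, D.Eq τ η Q p p') : S.card ≤ N7 * ⌊14 / κ⌋₊ := by
  classical
  set F := S.image (fun p' => (D.tr p', D.lv p', D.cl p')) with hF
  -- the fibres
  have h1 : S.card ≤ N7 * F.card := by
    rw [hF]
    refine Finset.card_le_mul_card_image S N7 ?_
    intro q hq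
    refine H.thick p q.1 q.2.2 _ ?_
    intro p' hp'
    rw [Finset.mem_filter] at hp'
    obtain ⟨h1, h2⟩ := hp'
    have h3 := hS p' h1
    rw [← h2]
    exact ⟨rfl, h3.lv, rfl, h3.meet, h3.cls⟩
  refine h1.trans (Nat.mul_le_mul_left N7 ?_)
  -- the number of pairs
  have hκ := H.κ_pos
  have hdis : (F : Set (ι × ℕ × ℤ)).PairwiseDisjoint
      (fun q => D.V u τ A (D.c p) (D.sl p) q) := by
    intro q hq q' hq' hne
    rw [Function.onFun, Set.disjoint_left]
    intro x hx hx'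
    obtain ⟨a, ha, rfl⟩ := Finset.mem_image.1 (Finset.mem_coe.1 hq)
    obtain ⟨a', ha', rfl⟩ := Finset.mem_image.1 (Finset.mem_coe.1 hq')
    have e1 := hS a ha
    have e2 := hS a' ha'
    have hl : D.lv a = D.lv a' := e1.lv.trans e2.lv.symm
    have hc1 : T.q τ (D.lv a) x = D.cl a := hx.1
    have hc2 : T.q τ (D.lv a') x = D.cl a' := hx'.1
    have hcc : D.cl a = D.cl a' := by rw [← hc1, ← hc2, hl]
    have htr : D.tr a ≠ D.tr a' := by
      intro htr
      apply hne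
      rw [htr, hl, hcc]
    have g1 := (eq_geo H e1 hc1).2
    have g2 := (eq_geo H e2 hc2).2
    have hm : D.Meet τ Y a a' := by
      refine ⟨x, hc1, (cell_L hc2).trans (by gcongr; norm_num), ?_⟩
      have e3 := abs_sub_le (D.ln a x) (D.ln p x) (D.ln a' x)
      rw [abs_sub_comm (D.ln p x)] at e3
      have e4 := H.h_nonneg
      linarith
    have h2 := H.sep a a' htr hl.symm.le hm
    have h3 : |u (x, D.c p + D.sl p * x) - D.sl a| ≤ (A + 1) * 2 ^ D.lv a := hx.2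
    have h4 : |u (x, D.c p + D.sl p * x) - D.sl a'| ≤ (A + 1) * 2 ^ D.lv a' := hx'.2
    rw [← hl] at h4
    have h5 := abs_sub_le (D.sl a) (u (x, D.c p + D.sl p * x)) (D.sl a')
    rw [abs_sub_comm (D.sl a) (u (x, D.c p + D.sl p * x))] at h5
    have h6 : 0 < (A + 1) * 2 ^ D.lv a := by
      have := H.A_nonneg
      positivity
    linarith
  have hsub : (⋃ q ∈ F, D.V u τ A (D.c p) (D.sl p) q) ⊆
      Icc (D.L τ p - 7 / 2 ^ D.lv p) (D.L τ p + 7 / 2 ^ D.lv p) := by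
    intro x hx
    simp only [mem_iUnion, exists_prop] at hx
    obtain ⟨q, hq, hx⟩ := hx
    obtain ⟨a, ha, rfl⟩ := Finset.mem_image.1 hq
    have g1 := (eq_geo H (hS a ha) hx.1).1
    rw [abs_le] at g1
    constructor <;> linarith [g1.1, g1.2]
  have hvol : ∀ q ∈ F, ENNReal.ofReal (κ / 2 ^ D.lv p) ≤
      volume (D.V u τ A (D.c p) (D.sl p) q) := by
    intro q hq
    obtain ⟨a, ha, rfl⟩ := Finset.mem_image.1 hq
    have e1 := hS a ha
    rw [← e1.lv]
    apply vol_V H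
    intro x hx
    have g1 := (eq_geo H e1 hx).2
    have g2 : D.ln p x = D.c p + D.sl p * x := rfl
    rw [g2] at g1
    have g3 := H.h_nonneg
    have g4 := abs_nonneg (D.ln a x - (D.c p + D.sl p * x))
    linarith
  have hsum : (F.card : ℝ≥0∞) * ENNReal.ofReal (κ / 2 ^ D.lv p) ≤
      ENNReal.ofReal (14 / 2 ^ D.lv p) := by
    calc (F.card : ℝ≥0∞) * ENNReal.ofReal (κ / 2 ^ D.lv p) =
        ∑ _q ∈ F, ENNReal.ofReal (κ / 2 ^ D.lv p) := by
          rw [Finset.sum_const, nsmul_eq_mul]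
      _ ≤ ∑ q ∈ F, volume (D.V u τ A (D.c p) (D.sl p) q) := Finset.sum_le_sum hvol
      _ = volume (⋃ q ∈ F, D.V u τ A (D.c p) (D.sl p) q) :=
          (measure_biUnion_finset hdis (fun q _ => meas_V H.meas_u _ _ q)).symm
      _ ≤ volume (Icc (D.L τ p - 7 / 2 ^ D.lv p) (D.L τ p + 7 / 2 ^ D.lv p)) :=
          measure_mono hsub
      _ = ENNReal.ofReal (14 / 2 ^ D.lv p) := by
          rw [Real.volume_Icc]
          congr 1
          ring
  rw [← ENNReal.ofReal_natCast, ← ENNReal.ofReal_mul (by positivity),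
    ENNReal.ofReal_le_ofReal_iff (by positivity)] at hsum
  apply Nat.le_floor
  rw [le_div_iff₀ hκ]
  have hpos : (0 : ℝ) < 2 ^ D.lv p := by positivity
  rw [← mul_div_assoc, div_le_div_iff_of_pos_right hpos] at hsum
  exact hsum

/-- the relation to be coloured -/
def TD.Rel (D : TD P ι) (τ η Q : ℝ) (a b : P) : Prop :=
  ((D.lv b ≤ D.lv a ∧ D.Meet τ η a b) ∨ (D.lv a ≤ D.lv b ∧ D.Meet τ η b a)) ∧
    (D.tr a = D.tr b ∨ (D.tr a ≠ D.tr b ∧ D.lv a = D.lv b ∧ |D.sl a - D.sl b| < Q * 2 ^ D.lv a))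

theorem rel_symm (a b : P) (hab : D.Rel τ η Q a b) : D.Rel τ η Q b a := by
  obtain ⟨h1, h2⟩ := hab
  refine ⟨h1.symm, ?_⟩
  rcases h2 with h2 | ⟨h2, h3, h4⟩
  · exact Or.inl h2.symm
  · refine Or.inr ⟨h2.symm, h3.symm, ?_⟩
    rw [abs_sub_comm, ← h3]
    exact h4

theorem rel_deg (H : Hyp D u τ e A h κ Q η Y M1 N6 N7 w d) (a : P) (S : Finset P)
    (hS : ∀ b ∈ S, b ≠ a ∧ D.Rel τ η Q a b ∧ D.lv b ≤ D.lv a) :
    S.card ≤ N6 + N7 * ⌊14 / κ⌋₊ := by
  classical
  rw [← Finset.card_filter_add_card_filter_not (s := S) (fun b => D.tr b = D.tr a)]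
  apply Nat.add_le_add
  · apply H.same a
    intro b hb
    rw [Finset.mem_filter] at hb
    obtain ⟨h1, ⟨h2, _⟩, h3⟩ := hS b hb.1
    refine ⟨h1, hb.2, h3, ?_⟩
    rcases h2 with h2 | h2
    · exact Or.inl h2.2
    · exact Or.inr ⟨le_antisymm h3 h2.1, h2.2⟩
  · apply eq_deg H a
    intro b hb
    rw [Finset.mem_filter] at hb
    obtain ⟨h1, ⟨h2, h4⟩, h3⟩ := hS b hb.1
    have h5 : D.tr b ≠ D.tr a := hb.2
    rcases h4 with h4 | ⟨_, h6, h7⟩
    · exact absurd h4.symm h5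
    · refine ⟨h5, h6.symm, ?_, h7⟩
      rcases h2 with h2 | h2
      · exact Or.inl h2.2
      · exact Or.inr h2.2

/-- [DEPTH], abstract form -/
theorem stDepthAbs : StDepthAbs := by
  classical
  obtain ⟨K, hK0, hK⟩ := H141.depthM
  refine ⟨2 * K, by omega, ?_⟩
  intro P ι _ D u τ e A h κ Q η Y M1 N6 N7 w m hm H
  have hKM : StDepthM K := hK
  set Rest : Finset P := Finset.univ.filter (fun p => D.Ch τ η Q (2 * m) p) with hRest
  -- depth classes
  have hex : ∀ p, ∃ k, k < 2 * m ∧ (p ∉ Rest → D.Ch τ η Q k p ∧ ¬ D.Ch τ η Q (k + 1) p) := by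
    intro p
    by_cases hp : p ∈ Rest
    · exact ⟨0, by omega, fun hh => absurd hp hh⟩
    · have hp' : ¬ D.Ch τ η Q (2 * m) p := by
        intro hh
        exact hp (by rw [hRest, Finset.mem_filter]; exact ⟨Finset.mem_univ _, hh⟩)
      have hE : ∃ k, ¬ D.Ch τ η Q (k + 1) p :=
        ⟨2 * m - 1, by rwa [show 2 * m - 1 + 1 = 2 * m by omega]⟩
      have hle : Nat.find hE ≤ 2 * m - 1 :=
        Nat.find_min' hE (by rwa [show 2 * m - 1 + 1 = 2 * m by omega])
      refine ⟨Nat.find hE, by omega, fun _ => ⟨?_, Nat.find_spec hE⟩⟩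
      rcases Nat.eq_zero_or_pos (Nat.find hE) with h0 | h0
      · rw [h0]; trivial
      · have := Nat.find_min hE (m := Nat.find hE - 1) (by omega)
        rw [show Nat.find hE - 1 + 1 = Nat.find hE by omega] at this
        exact not_not.1 this
  choose dep hdep1 hdep2 using hex
  obtain ⟨col, hcol⟩ := H22.exists_coloring (D.Rel τ η Q) (fun a b => rel_symm a b) D.lv
    (N6 + N7 * ⌊14 / κ⌋₊) Finset.univ (fun a _ S _ hS => rel_deg H a S hS)
  have hcard : Fintype.card (Fin 4 × Fin (2 * m) × Fin (N6 + N7 * ⌊14 / κ⌋₊ + 1)) =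
      8 * m * (N6 + N7 * ⌊14 / κ⌋₊ + 1) := by
    simp only [Fintype.card_prod, Fintype.card_fin]
    ring
  set eqv := Fintype.equivFinOfCardEq hcard with heqv
  refine ⟨Rest, fun p => eqv (⟨D.lv p % 4, Nat.mod_lt _ (by norm_num)⟩, ⟨dep p, hdep1 p⟩, col p),
    ?_, ?_⟩
  · refine (vol_rest hKM hm H Rest ?_).trans ?_
    · intro p hp
      rw [hRest, Finset.mem_filter] at hp
      exact hp.2
    · refine mul_le_mul' (ENNReal.ofReal_le_ofReal ?_) le_rfl
      have hY := Y_nonneg H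
      have hκ := H.κ_pos
      push_cast
      have h1 : (2 : ℝ) ^ (-(κ * m / (K * (w + 1)))) ≤ 2 ^ (-(κ * m / (2 * K * (w + 1)))) := by
        apply Real.rpow_le_rpow_of_exponent_le (by norm_num)
        apply neg_le_neg
        have hK1 : (0 : ℝ) < K := by exact_mod_cast hK0
        gcongr
        linarith
      have h2 : 0 ≤ 2 * (K : ℝ) * M1 * Y / κ := by positivity
      exact mul_le_mul_of_nonneg_left h1 h2
  · intro p p' hp hp' hne hpp hlv hmeet
    have h1 := eqv.injective hpp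
    simp only [Prod.mk.injEq, Fin.mk.injEq] at h1
    obtain ⟨h2, h3, h4⟩ := h1
    by_contra hcon
    rw [not_le] at hcon
    by_cases htr : D.tr p = D.tr p'
    · exact hcol p (Finset.mem_univ _) p' (Finset.mem_univ _) hne
        ⟨Or.inl ⟨hlv, hmeet⟩, Or.inl htr⟩ h4
    · rcases Nat.lt_or_eq_of_le hlv with hlt | heq
      · have hD : D.Dom τ η Q p p' := ⟨hlt, h2.symm, htr, hmeet, hcon⟩
        apply (hdep2 p hp).2
        refine ⟨p', hD, ?_⟩
        rw [h3]
        exact (hdep2 p' hp').1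
      · exact hcol p (Finset.mem_univ _) p' (Finset.mem_univ _) hne
          ⟨Or.inl ⟨hlv, hmeet⟩, Or.inr ⟨htr, heq.symm, hcon⟩⟩ h4

end Vale.Agent.P112.H818
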