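import Mathlib

/-!
# [DEPTH]: numbers of the packaging
-/

namespace Vale.Agent.P112.H818

theorem num_a {K0 N T C m Q H : ℝ} {Cn : ℕ} (hCn : 3 ≤ Cn) (hK2 : 1 ≤ K0 ^ 2) (hN1 : 1 ≤ N)
    (hC : 20000 * K0 ^ 2 * N + 3 ≤ C) (hT : 1 ≤ T) (hm : m ≤ 49 * K0 ^ 2 * T ^ 2) (hQ : 0 ≤ Q)
    (hmain : C * T ^ Cn * Q ≤ H) : (30 + 56 * m) * Q ≤ H := by
  refine le_trans ?_ hmain
  apply mul_le_mul_of_nonneg_right _ hQ
  have h2 : T ^ 2 ≤ T ^ Cn := pow_le_pow_right₀ hT (by omega)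
  have h3 : 1 ≤ T ^ 2 := one_le_pow₀ hT
  have h5 : K0 ^ 2 ≤ K0 ^ 2 * N := le_mul_of_one_le_right (by positivity) hN1
  have h6 : 2744 * K0 ^ 2 + 30 ≤ C := by linarith
  have h7 : (2744 * K0 ^ 2 + 30) * T ^ 2 ≤ C * T ^ 2 :=
    mul_le_mul_of_nonneg_right h6 (by positivity)
  have hC0 : 0 ≤ C := by linarith
  calc 30 + 56 * m ≤ (2744 * K0 ^ 2 + 30) * T ^ 2 := by linarith
    _ ≤ C * T ^ 2 := h7
    _ ≤ C * T ^ Cn := mul_le_mul_of_nonneg_left h2 hC0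

theorem num_b {K0 δ W V X : ℝ} {m w : ℕ} (hK0 : 1 ≤ K0) (hδ : 0 < δ) (hW : 1 ≤ W)
    (hV : V = W / δ) (hX : 1 ≤ X) (hm : 48 * K0 ^ 2 * (V ^ 2 * X) ≤ m) (hw : (w : ℝ) + 1 ≤ 4 * W) :
    (2 : ℝ) ^ (-(δ * m / (K0 * (w + 1)))) ≤ Real.exp (-(6 * K0 * V * X)) := by
  have hexp : 12 * K0 * V * X ≤ δ * m / (K0 * (w + 1)) := by
    rw [le_div_iff₀ (by positivity)]
    have hV0 : 0 < V := by rw [hV]; positivity
    calc 12 * K0 * V * X * (K0 * (w + 1)) ≤ 12 * K0 * V * X * (K0 * (4 * W)) := by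
          gcongr
      _ = δ * (48 * K0 ^ 2 * (V ^ 2 * X)) := by
          rw [hV]; field_simp; ring
      _ ≤ δ * m := mul_le_mul_of_nonneg_left hm hδ.le
  rw [Real.rpow_def_of_pos (by norm_num)]
  apply Real.exp_le_exp.2
  have h2 := Real.log_two_gt_d9
  have h3 : 0 ≤ δ * m / (K0 * (w + 1)) := by positivity
  have h4 : 1 / 2 * (δ * m / (K0 * (w + 1))) ≤ Real.log 2 * (δ * m / (K0 * (w + 1))) :=
    mul_le_mul_of_nonneg_right (by linarith) h3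
  linarith

theorem num_c {K0 δ W V X H X' : ℝ} {M : ℕ} (hK0 : 1 ≤ K0) (hδ : 0 < δ)
    (hV : V = W / δ) (hV1 : 1 ≤ V) (hX' : X' = Real.log H + X) (hX1 : 1 ≤ X')
    (hH : 1 ≤ H) (hM : (M : ℝ) ≤ 2 * W) {E : ℝ} (hE : E ≤ Real.exp (-(6 * K0 * V * X'))) :
    K0 * M * H / δ * E ≤ Real.exp (-X) := by
  have e1 : K0 * M * H / δ ≤ (2 * K0 * V) * H := by
    rw [hV]
    calc K0 * M * H / δ ≤ K0 * (2 * W) * H / δ := by gcongr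
      _ = 2 * K0 * (W / δ) * H := by ring
  have e2 : 2 * K0 * V ≤ Real.exp (2 * K0 * V) := by
    have := Real.add_one_le_exp (2 * K0 * V)
    linarith
  have e3 : H = Real.exp (X' - X) := by
    rw [hX', add_sub_cancel_right, Real.exp_log (by linarith)]
  have h5 : K0 * M * H / δ ≤ Real.exp (2 * K0 * V + X' - X) := by
    calc K0 * M * H / δ ≤ (2 * K0 * V) * H := e1
      _ ≤ Real.exp (2 * K0 * V) * H := by gcongr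
      _ = Real.exp (2 * K0 * V) * Real.exp (X' - X) := by rw [← e3]
      _ = Real.exp (2 * K0 * V + X' - X) := by
          rw [← Real.exp_add]; congr 1; ring
  calc K0 * M * H / δ * E ≤
      K0 * M * H / δ * Real.exp (-(6 * K0 * V * X')) := by gcongr
    _ ≤ Real.exp (2 * K0 * V + X' - X) * Real.exp (-(6 * K0 * V * X')) := by
        gcongr
    _ = Real.exp (2 * K0 * V + X' - X + -(6 * K0 * V * X')) := by
        rw [← Real.exp_add]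
    _ ≤ Real.exp (-X) := by
        apply Real.exp_le_exp.2
        have e4 : 1 ≤ K0 * V := one_le_mul_of_one_le_of_one_le hK0 hV1
        have e5 : K0 * V * 1 ≤ K0 * V * X' := mul_le_mul_of_nonneg_left hX1 (by linarith)
        have e6 : 1 * X' ≤ K0 * V * X' := mul_le_mul_of_nonneg_right e4 (by linarith)
        linarith

theorem num_d {K0 δ W V T C N : ℝ} {m fW f14 c6 c7 Cn : ℕ} (hCn : 3 ≤ Cn) (hK2 : 1 ≤ K0 ^ 2)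
    (hN : N = 2 * c6 + 14 * c7 + 1) (hC : 20000 * K0 ^ 2 * N + 3 ≤ C) (hT : 1 ≤ T) (hVT : V ≤ T)
    (hV1 : 1 ≤ V) (hδ : 0 < δ) (hδ1 : δ ≤ 1) (hW : 1 ≤ W) (hV : V = W / δ) (hfW : (fW : ℝ) ≤ W)
    (hf14 : (f14 : ℝ) ≤ 14 / δ) (hm : (m : ℝ) ≤ 49 * K0 ^ 2 * T ^ 2) :
    ((8 * m * (c6 * (fW + 1) + c7 * f14 + 1) : ℕ) : ℝ) ≤ C * T ^ Cn := by
  have hTC : T ^ 3 ≤ T ^ Cn := pow_le_pow_right₀ hT hCn
  have h1d : 1 / δ ≤ V := by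
    rw [hV]; gcongr
  have h14' : (f14 : ℝ) ≤ 14 * V := by
    have : 14 / δ = 14 * (1 / δ) := by ring
    linarith
  have hWV : W ≤ V := by
    rw [hV, le_div_iff₀ hδ]; nlinarith
  have hB : ((c6 * (fW + 1) + c7 * f14 + 1 : ℕ) : ℝ) ≤ N * V := by
    push_cast
    rw [hN]
    have e1 : (c6 : ℝ) * (fW + 1) ≤ c6 * (2 * V) :=
      mul_le_mul_of_nonneg_left (by linarith) (Nat.cast_nonneg _)
    have e2 : (c7 : ℝ) * f14 ≤ c7 * (14 * V) :=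
      mul_le_mul_of_nonneg_left h14' (Nat.cast_nonneg _)
    linarith
  have hN0 : 0 ≤ N := by rw [hN]; positivity
  have hB2 : ((c6 * (fW + 1) + c7 * f14 + 1 : ℕ) : ℝ) ≤ N * T :=
    hB.trans (mul_le_mul_of_nonneg_left hVT hN0)
  have hKN : 0 ≤ K0 ^ 2 * N := by positivity
  have hC0 : 0 ≤ C := by linarith
  calc ((8 * m * (c6 * (fW + 1) + c7 * f14 + 1) : ℕ) : ℝ) =
      8 * m * ((c6 * (fW + 1) + c7 * f14 + 1 : ℕ) : ℝ) := by push_cast; ring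
    _ ≤ 8 * (49 * K0 ^ 2 * T ^ 2) * (N * T) := by
        apply mul_le_mul _ hB2 (by positivity) (by positivity)
        linarith
    _ = (392 * (K0 ^ 2 * N)) * T ^ 3 := by ring
    _ ≤ C * T ^ 3 := by
        apply mul_le_mul_of_nonneg_right _ (by positivity)
        linarith
    _ ≤ C * T ^ Cn := mul_le_mul_of_nonneg_left hTC hC0

/-- the numbers of [DEPTH] -/
theorem depth_num (K0 c6 c7 : ℕ) (hK0 : 0 < K0) : ∃ C0 : ℕ, 1 ≤ C0 ∧ ∀ C : ℕ, C0 ≤ C →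
    ∀ A H Q W X δ : ℝ,
    (C : ℝ) ≤ A → A ≤ Q → Q ≤ H → 1 ≤ W → Q ≤ 2 ^ W → 1 ≤ X → 0 < δ → δ ≤ 1 →
    C * (A * W * (Real.log H + X) / δ) ^ C * Q ≤ H →
    1 ≤ H ∧ 2 * Q ≤ 2 ^ (⌊W⌋₊ + 2) ∧ ∃ m : ℕ, 0 < m ∧ (30 + 56 * m) * Q ≤ H ∧
      ((8 * m * (c6 * (⌊W⌋₊ + 1) + c7 * ⌊14 / δ⌋₊ + 1) : ℕ) : ℝ) ≤
        C * (A * W * (Real.log H + X) / δ) ^ C ∧
      K0 * ((⌊W⌋₊ + 1 : ℕ) : ℝ) * H / δ *
        (2 : ℝ) ^ (-(δ * m / (K0 * (((⌊W⌋₊ + 2 : ℕ) : ℝ) + 1)))) ≤ Real.exp (-X) := by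
  have hK0r : (1 : ℝ) ≤ K0 := by exact_mod_cast hK0
  refine ⟨20000 * K0 ^ 2 * (2 * c6 + 14 * c7 + 1) + 3, by omega, ?_⟩
  intro C hC A H Q W X δ hCA hAQ hQH hW hQW hX hδ hδ1 hmain
  have hCr : 20000 * (K0 : ℝ) ^ 2 * (2 * c6 + 14 * c7 + 1) + 3 ≤ C := by exact_mod_cast hC
  have hC3 : 3 ≤ C := by omega
  have hN1 : (1 : ℝ) ≤ 2 * c6 + 14 * c7 + 1 := by
    have : (0 : ℝ) ≤ 2 * c6 + 14 * c7 := by positivity
    linarith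
  have hK2 : (1 : ℝ) ≤ (K0 : ℝ) ^ 2 := one_le_pow₀ hK0r
  have hA1 : (1 : ℝ) ≤ A := by
    have : (3 : ℝ) ≤ C := by exact_mod_cast hC3
    linarith
  have hQ1 : 1 ≤ Q := hA1.trans hAQ
  have hH1 : 1 ≤ H := hQ1.trans hQH
  have hlogH : 0 ≤ Real.log H := Real.log_nonneg hH1
  obtain ⟨X', hX'⟩ : ∃ X', X' = Real.log H + X := ⟨_, rfl⟩
  rw [← hX'] at hmain ⊢
  have hX1 : 1 ≤ X' := by linarith
  obtain ⟨V, hV⟩ : ∃ V, V = W / δ := ⟨_, rfl⟩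
  have hV1 : 1 ≤ V := by
    rw [hV, le_div_iff₀ hδ]; linarith
  obtain ⟨T, hT⟩ : ∃ T, T = A * W * X' / δ := ⟨_, rfl⟩
  rw [← hT] at hmain ⊢
  have hTV : T = A * (V * X') := by rw [hT, hV]; ring
  have hVX : 1 ≤ V * X' := one_le_mul_of_one_le_of_one_le hV1 hX1
  have hT1 : V * X' ≤ T := by
    rw [hTV]
    exact le_mul_of_one_le_left (by linarith) hA1
  have hTone : 1 ≤ T := hVX.trans hT1
  -- choice of m
  obtain ⟨m, hm⟩ : ∃ m : ℕ, m = ⌈48 * (K0 : ℝ) ^ 2 * (V ^ 2 * X')⌉₊ := ⟨_, rfl⟩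
  have hm1 : 48 * (K0 : ℝ) ^ 2 * (V ^ 2 * X') ≤ m := by rw [hm]; exact Nat.le_ceil _
  have hVVX : 1 ≤ V ^ 2 * X' := by
    have : V ^ 2 * X' = V * (V * X') := by ring
    rw [this]
    exact one_le_mul_of_one_le_of_one_le hV1 hVX
  have hKVVX : 1 ≤ (K0 : ℝ) ^ 2 * (V ^ 2 * X') := one_le_mul_of_one_le_of_one_le hK2 hVVX
  have hm2 : (m : ℝ) ≤ 49 * ((K0 : ℝ) ^ 2 * (V ^ 2 * X')) := by
    have := (Nat.ceil_lt_add_one (a := 48 * (K0 : ℝ) ^ 2 * (V ^ 2 * X')) (by positivity)).le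
    rw [← hm] at this
    linarith
  have hVT : V ^ 2 * X' ≤ T ^ 2 := by
    calc V ^ 2 * X' ≤ V ^ 2 * X' * X' := le_mul_of_one_le_right (by linarith) hX1
      _ = (V * X') ^ 2 := by ring
      _ ≤ T ^ 2 := pow_le_pow_left₀ (by linarith) hT1 2
  have hVT1 : V ≤ T := by
    have : V ≤ V * X' := le_mul_of_one_le_right (by linarith) hX1
    linarith
  have hmT : (m : ℝ) ≤ 49 * (K0 : ℝ) ^ 2 * T ^ 2 := by
    have : (K0 : ℝ) ^ 2 * (V ^ 2 * X') ≤ (K0 : ℝ) ^ 2 * T ^ 2 :=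
      mul_le_mul_of_nonneg_left hVT (by positivity)
    linarith
  have hmpos : 0 < m := by
    have : (0 : ℝ) < m := by linarith
    exact_mod_cast this
  have hfl : (⌊W⌋₊ : ℝ) ≤ W := Nat.floor_le (by linarith)
  have hfl2 : W < ⌊W⌋₊ + 1 := Nat.lt_floor_add_one W
  refine ⟨hH1, ?_, m, hmpos, ?_, ?_, ?_⟩
  · have h1 : (2 : ℝ) ^ W ≤ 2 ^ ((⌊W⌋₊ : ℝ) + 1) :=
      Real.rpow_le_rpow_of_exponent_le (by norm_num) hfl2.le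
    have h2 : (2 : ℝ) ^ ((⌊W⌋₊ : ℝ) + 1) = 2 ^ (⌊W⌋₊ + 1) := by
      rw [← Real.rpow_natCast]
      push_cast
      rfl
    rw [h2] at h1
    rw [show ⌊W⌋₊ + 2 = (⌊W⌋₊ + 1) + 1 by ring, pow_succ (2 : ℝ) (⌊W⌋₊ + 1)]
    linarith
  · exact num_a hC3 hK2 hN1 hCr hTone hmT (by linarith) hmain
  · exact num_d hC3 hK2 rfl hCr hTone hVT1 hV1 hδ hδ1 hW hV hfl (Nat.floor_le (by positivity)) hmT
  · have hfl1 : ((⌊W⌋₊ + 1 : ℕ) : ℝ) ≤ 2 * W := by push_cast; linarith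
    have hw1 : ((⌊W⌋₊ + 2 : ℕ) : ℝ) + 1 ≤ 4 * W := by push_cast; linarith
    exact num_c hK0r hδ hV hV1 hX' hX1 hH1 hfl1
      (num_b (w := ⌊W⌋₊ + 2) hK0r hδ hW hV hX1 hm1 hw1)

/-- helper566's form -/
theorem num (K0 : ℕ) (hK0 : 0 < K0) : ∃ C : ℕ, 1 ≤ C ∧ ∀ A Q H W X δ : ℝ, (C : ℝ) ≤ A → A ≤ Q →
    Q ≤ H → 1 ≤ W → Q ≤ 2 ^ W → 1 ≤ X → 0 < δ → δ ≤ 1 →
    C * (A * W * (Real.log H + X) / δ) ^ C * Q ≤ H →
    1 ≤ H ∧ ∃ m : ℕ, 0 < m ∧ (56 * m + 30 : ℝ) * Q ≤ H ∧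
      ENNReal.ofReal (K0 * ((⌊W⌋₊ + 1 : ℕ) : ℝ) * ((56 * m + 30) * Q) / δ *
        (2 : ℝ) ^ (-(δ * m / (K0 * (((⌊W⌋₊ + 2 : ℕ) : ℝ) + 1))))) ≤
        ENNReal.ofReal (Real.exp (-X)) ∧
      ((8 * m * ((⌊W⌋₊ + 1) * 357 + 81 * ⌊14 / δ⌋₊ + 1) : ℕ) : ℝ) ≤
        C * (A * W * (Real.log H + X) / δ) ^ C := by
  obtain ⟨C, hC1, hC⟩ := depth_num K0 357 81 hK0
  refine ⟨C, hC1, ?_⟩
  intro A Q H W X δ hCA hAQ hQH hW hQW hX hδ hδ1 hmain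
  obtain ⟨h1, _, m, h3, h4, h5, h6⟩ := hC C le_rfl A H Q W X δ hCA hAQ hQH hW hQW hX hδ hδ1 hmain
  have h4' : (56 * (m : ℝ) + 30) * Q ≤ H := by linarith
  refine ⟨h1, m, h3, h4', ?_, ?_⟩
  · apply ENNReal.ofReal_le_ofReal
    refine le_trans ?_ h6
    gcongr
  · rwa [mul_comm (⌊W⌋₊ + 1) 357]

end Vale.Agent.P112.H818
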