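import Vale.Agent.P112.T.Defs

/-!
# [DEPTH]: dense tiles split into few families which are Q-separated at meeting

A tile `p` is a fat tube: tree label `tr p`, slope `s (tr p)`, line `y = c p + s (tr p) * x`, level
`lv p` (length `2 ^ (-lv p)`), cell `cl p` of the dyadic grid shifted by `τ`, set `E p` of points.
-/

open MeasureTheory Set

namespace Vale.Agent.P112.H818

/-- the data of a family of tiles -/
structure TD (P ι : Type) where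
  tr : P → ι
  s : ι → ℝ
  c : P → ℝ
  lv : P → ℕ
  cl : P → ℤ
  E : P → Set (ℝ × ℝ)

variable {P ι : Type}

/-- the slope of the tile -/
def TD.sl (D : TD P ι) (p : P) : ℝ := D.s (D.tr p)

/-- the line of the tile -/
def TD.ln (D : TD P ι) (p : P) (x : ℝ) : ℝ := D.c p + D.sl p * x

/-- left end of the cell -/
noncomputable def TD.L (D : TD P ι) (τ : ℝ) (p : P) : ℝ := τ + D.cl p / 2 ^ D.lv p

/-- `p` (to be used for `lv p' ≤ lv p`, i.e. `p` is the shorter one) meets `p'`: over a point of the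
cell of `p`, at most `5 / 2 ^ lv p'` away from the left end of the cell of `p'`, the two lines are
within `η` -/
def TD.Meet (D : TD P ι) (τ η : ℝ) (p p' : P) : Prop :=
  ∃ x, T.q τ (D.lv p) x = D.cl p ∧ |x - D.L τ p'| ≤ 5 / 2 ^ D.lv p' ∧
    |D.ln p x - D.ln p' x| ≤ η

/-- Hypotheses of [DEPTH]. `κ` own density, `Q` the separation to be reached, `η` the tolerance
at which tiles meet, `d` the depth, `Y` the total vertical drift of a chain of length `d`,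
`M1` the overlap of the sets `E p`, `N6` the number of longer meeting tiles of the same tree,
`N7` the number of meeting tiles with the same tree, level and cell (different offset). -/
structure Hyp (D : TD P ι) (u : ℝ × ℝ → ℝ) (τ e A h κ Q η Y : ℝ) (M1 N6 N7 w d : ℕ) : Prop where
  meas_u : Measurable u
  meas : ∀ p, MeasurableSet (D.E p)
  cell : ∀ p, ∀ z ∈ D.E p, T.q τ (D.lv p) z.1 = D.cl p
  line : ∀ p, ∀ z ∈ D.E p, |z.2 - D.ln p z.1| ≤ h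
  slope : ∀ p, ∀ z ∈ D.E p, |u z - D.sl p| ≤ A * 2 ^ D.lv p
  dens : ∀ p, ∃ b B : ℝ, 1 / 2 ≤ B ∧ ENNReal.ofReal (2 * B * (κ / 2 ^ D.lv p)) ≤
    volume (D.E p ∩ {z : ℝ × ℝ | |z.2 - b - D.sl p * z.1| ≤ B})
  sep : ∀ p p', D.tr p ≠ D.tr p' → D.lv p' ≤ D.lv p → D.Meet τ Y p p' →
    4 * (A + 1) * 2 ^ D.lv p ≤ |D.sl p - D.sl p'|
  same : ∀ p, ∀ F : Finset P, (∀ p' ∈ F, p' ≠ p ∧ D.tr p' = D.tr p ∧ D.lv p' ≤ D.lv p ∧
    (D.Meet τ η p p' ∨ (D.lv p' = D.lv p ∧ D.Meet τ η p' p))) → F.card ≤ N6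
  thick : ∀ p, ∀ (i : ι) (k : ℤ), ∀ F : Finset P, (∀ p' ∈ F, D.tr p' = i ∧ D.lv p' = D.lv p ∧
    D.cl p' = k ∧ (D.Meet τ η p p' ∨ D.Meet τ η p' p) ∧
    |D.sl p - D.sl p'| < Q * 2 ^ D.lv p) → F.card ≤ N7
  ovl : ∀ z, ∀ F : Finset P, (∀ p ∈ F, z ∈ D.E p) → F.card ≤ M1
  lip : ∀ x y y', |u (x, y) - u (x, y')| ≤ e * |y - y'|
  e_nonneg : 0 ≤ e
  eY : e * Y ≤ 1
  A_nonneg : 0 ≤ A
  h_nonneg : 0 ≤ h
  Q_one : 1 ≤ Q
  η_nonneg : 0 ≤ η
  κ_pos : 0 < κ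
  κ_le : κ ≤ 1
  Y_ge : 2 * (h + (d + 1) * (η + 9 * Q)) ≤ Y
  hw : 2 * Q ≤ 2 ^ w

/-- `p'` is dominated by the longer tile `p` -/
def TD.Dom (D : TD P ι) (τ η Q : ℝ) (p' p : P) : Prop :=
  D.lv p < D.lv p' ∧ D.lv p % 4 = D.lv p' % 4 ∧ D.tr p' ≠ D.tr p ∧ D.Meet τ η p' p ∧
    |D.sl p' - D.sl p| < Q * 2 ^ D.lv p'

/-- there is a chain of length `n` above `p` -/
def TD.Ch (D : TD P ι) (τ η Q : ℝ) : ℕ → P → Prop
  | 0, _ => True
  | n + 1, p => ∃ p₁, D.Dom τ η Q p p₁ ∧ D.Ch τ η Q n p₁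

/-- the set of the points of the cell `k` of level `j` where the field along the line `a + b x` is
close to the slope of the tree `i` -/
def TD.V (D : TD P ι) (u : ℝ × ℝ → ℝ) (τ A a b : ℝ) (t : ι × ℕ × ℤ) : Set ℝ :=
  {x | T.q τ t.2.1 x = t.2.2 ∧ |u (x, a + b * x) - D.s t.1| ≤ (A + 1) * 2 ^ t.2.1}

/-- [DEPTH], abstract form. Theorem to prove: `StDepthAbs`. -/
def StDepthAbs : Prop := ∃ K : ℕ, 0 < K ∧ ∀ (P ι : Type) (_ : Fintype P) (D : TD P ι)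
  (u : ℝ × ℝ → ℝ) (τ e A h κ Q η Y : ℝ) (M1 N6 N7 w m : ℕ), 0 < m →
  Hyp D u τ e A h κ Q η Y M1 N6 N7 w (2 * m) →
  ∃ (Rest : Finset P) (col : P → Fin (8 * m * (N6 + N7 * ⌊14 / κ⌋₊ + 1))),
    volume (⋃ p ∈ Rest, D.E p) ≤ ENNReal.ofReal (K * M1 * Y / κ *
      (2 : ℝ) ^ (-(κ * m / (K * (w + 1))))) * volume (⋃ p, D.E p) ∧
    ∀ p p', p ∉ Rest → p' ∉ Rest → p ≠ p' → col p = col p' → D.lv p' ≤ D.lv p →
      D.Meet τ η p p' → Q * 2 ^ D.lv p ≤ |D.sl p - D.sl p'|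

end Vale.Agent.P112.H818
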