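import Vale.Agent.P112.H818.DDefs

/-!
# [DEPTH], part 1: geometry of chains
-/

open MeasureTheory Set
open scoped ENNReal

namespace Vale.Agent.P112.H818

variable {P ι : Type} {D : TD P ι} {u : ℝ × ℝ → ℝ} {τ e A h κ Q η Y : ℝ} {M1 N6 N7 w d : ℕ}

theorem sub_L (D : TD P ι) (τ : ℝ) (p : P) (x : ℝ) :
    x - D.L τ p = (2 ^ D.lv p * (x - τ) - D.cl p) / 2 ^ D.lv p := by
  unfold TD.L
  field_simp
  ring

theorem cell_L {p : P} {x : ℝ} (h1 : T.q τ (D.lv p) x = D.cl p) :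
    |x - D.L τ p| ≤ 1 / 2 ^ D.lv p := by
  rw [sub_L, abs_div, abs_of_pos (show (0 : ℝ) < 2 ^ D.lv p by positivity)]
  have h2 : |2 ^ D.lv p * (x - τ) - (D.cl p : ℝ)| ≤ 1 := by
    unfold T.q at h1
    rw [Int.floor_eq_iff] at h1
    rw [abs_le]
    constructor <;> linarith [h1.1, h1.2]
  gcongr

theorem L_q {p : P} {x : ℝ} (h1 : |x - D.L τ p| ≤ 7 / 2 ^ D.lv p) :
    |T.q τ (D.lv p) x - D.cl p| ≤ 8 := by
  rw [sub_L, abs_div, abs_of_pos (show (0 : ℝ) < 2 ^ D.lv p by positivity),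
    div_le_div_iff_of_pos_right (by positivity), abs_le] at h1
  have h2 := Int.floor_le (2 ^ D.lv p * (x - τ))
  have h3 := Int.lt_floor_add_one (2 ^ D.lv p * (x - τ))
  rw [abs_le]
  unfold T.q
  constructor
  · have : (-8 : ℝ) ≤ ((⌊2 ^ D.lv p * (x - τ)⌋ - D.cl p : ℤ) : ℝ) := by
      push_cast; linarith [h1.1]
    exact_mod_cast this
  · have : ((⌊2 ^ D.lv p * (x - τ)⌋ - D.cl p : ℤ) : ℝ) ≤ (8 : ℝ) := by
      push_cast; linarith [h1.2]
    exact_mod_cast this

/-- the left end is in the cell -/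
theorem q_L (D : TD P ι) (τ : ℝ) (p : P) : T.q τ (D.lv p) (D.L τ p) = D.cl p := by
  unfold T.q TD.L
  have : (2 : ℝ) ^ D.lv p * (τ + D.cl p / 2 ^ D.lv p - τ) = D.cl p := by
    field_simp; ring
  rw [this, Int.floor_intCast]

theorem ch_fun {n : ℕ} {p : P} (hc : D.Ch τ η Q n p) :
    ∃ f : ℕ → P, f 0 = p ∧ ∀ i < n, D.Dom τ η Q (f i) (f (i + 1)) := by
  induction n generalizing p with
  | zero => exact ⟨fun _ => p, rfl, fun i hi => absurd hi (Nat.not_lt_zero i)⟩
  | succ n ih =>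
    obtain ⟨p₁, h1, h2⟩ := hc
    obtain ⟨f, hf0, hf⟩ := ih h2
    refine ⟨fun k => if k = 0 then p else f (k - 1), by simp, ?_⟩
    intro i hi
    rcases i with _ | i
    · simpa [hf0] using h1
    · simpa using hf i (by omega)

theorem ln_sub (D : TD P ι) (p p' : P) (x y : ℝ) : D.ln p x - D.ln p' x =
    (D.ln p y - D.ln p' y) + (D.sl p - D.sl p') * (x - y) := by
  unfold TD.ln; ring

section chain

variable {n : ℕ} {f : ℕ → P} (hf : ∀ i < n, D.Dom τ η Q (f i) (f (i + 1)))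
include hf

theorem ch_lv {i : ℕ} (hi : i < n) : D.lv (f (i + 1)) + 4 ≤ D.lv (f i) := by
  have h1 := (hf i hi).1
  have h2 := (hf i hi).2.1
  omega

theorem ch_pow {i : ℕ} (hi : i < n) : 16 * (2 : ℝ) ^ D.lv (f (i + 1)) ≤ 2 ^ D.lv (f i) := by
  have h1 : D.lv (f (i + 1)) + 4 ≤ D.lv (f i) := ch_lv hf hi
  calc 16 * (2 : ℝ) ^ D.lv (f (i + 1)) = 2 ^ (D.lv (f (i + 1)) + 4) := by ring
    _ ≤ 2 ^ D.lv (f i) := pow_le_pow_right₀ (by norm_num) h1

theorem ch_inv {i : ℕ} (hi : i < n) :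
    (1 : ℝ) / 2 ^ D.lv (f i) ≤ 1 / 16 * (1 / 2 ^ D.lv (f (i + 1))) := by
  have h1 := ch_pow hf hi
  have h2 : (1 : ℝ) / 16 * (1 / 2 ^ D.lv (f (i + 1))) = 1 / (16 * 2 ^ D.lv (f (i + 1))) := by
    rw [one_div_mul_one_div]
  rw [h2]
  exact one_div_le_one_div_of_le (by positivity) h1

theorem ch_lt : ∀ k i : ℕ, 0 < k → i + k ≤ n → D.lv (f (i + k)) < D.lv (f i) := by
  intro k
  induction k with
  | zero => intro i h0; omega
  | succ k ih =>
    intro i _ hik
    have h1 : D.lv (f (i + (k + 1))) < D.lv (f (i + k)) := by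
      have := ch_lv hf (i := i + k) (by omega)
      have e1 : i + (k + 1) = i + k + 1 := by ring
      rw [e1]
      omega
    rcases Nat.eq_zero_or_pos k with rfl | hk
    · simpa using h1
    · exact h1.trans (ih i hk (by omega))

theorem ch_slope (hQ : 0 ≤ Q) : ∀ k i : ℕ, i + k ≤ n →
    |D.sl (f i) - D.sl (f (i + k))| ≤ 5 / 4 * Q * 2 ^ D.lv (f i) := by
  intro k
  induction k with
  | zero => intro i _; simp; positivity
  | succ k ih =>
    intro i hik
    have h1 := ih (i + 1) (by omega)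
    have h2 := (hf i (by omega)).2.2.2.2
    have h3 := ch_pow hf (i := i) (by omega)
    have h4 : i + 1 + k = i + (k + 1) := by ring
    rw [h4] at h1
    have h5 := abs_sub_le (D.sl (f i)) (D.sl (f (i + 1))) (D.sl (f (i + (k + 1))))
    have h6 := mul_le_mul_of_nonneg_left h3 hQ
    have h7 : 0 ≤ Q * 2 ^ D.lv (f (i + 1)) := by positivity
    nlinarith

theorem ch_L : ∀ k i : ℕ, i + k ≤ n →
    |D.L τ (f i) - D.L τ (f (i + k))| ≤ 6 * (1 / 2 ^ D.lv (f (i + k))) := by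
  intro k
  induction k with
  | zero => intro i _; simp
  | succ k ih =>
    intro i hik
    have h1 := ih i (by omega)
    obtain ⟨_, _, _, ⟨x, hx1, hx2, _⟩, _⟩ := hf (i + k) (by omega)
    have h3 := ch_inv hf (i := i + k) (by omega)
    have h4 := cell_L hx1
    have h5' : |x - D.L τ (f (i + k + 1))| ≤ 5 * (1 / 2 ^ D.lv (f (i + k + 1))) := by
      rw [mul_one_div]; exact hx2
    have h6 : i + k + 1 = i + (k + 1) := by ring
    rw [h6] at h5' h3
    rw [abs_le] at *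
    constructor <;> linarith [h1.1, h1.2, h4.1, h4.2, h5'.1, h5'.2]

theorem ch_pos {i : ℕ} {x : ℝ} (hx : T.q τ (D.lv (f i)) x = D.cl (f i)) (k : ℕ)
    (hik : i + k ≤ n) : |x - D.L τ (f (i + k))| ≤ 7 / 2 ^ D.lv (f (i + k)) := by
  have h1 := ch_L hf k i hik
  have h2 := cell_L hx
  have h3 : (1 : ℝ) / 2 ^ D.lv (f i) ≤ 1 / 2 ^ D.lv (f (i + k)) := by
    apply one_div_le_one_div_of_le (by positivity)
    apply pow_le_pow_right₀ (by norm_num)
    rcases Nat.eq_zero_or_pos k with rfl | hk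
    · simp
    · exact (ch_lt hf k i hk hik).le
  have h4 : (7 : ℝ) / 2 ^ D.lv (f (i + k)) = 7 * (1 / 2 ^ D.lv (f (i + k))) := by ring
  rw [h4]
  rw [abs_le] at *
  constructor <;> linarith [h1.1, h1.2, h2.1, h2.2]

theorem ch_ln (hQ : 0 ≤ Q) {i : ℕ} {x : ℝ}
    (hx : T.q τ (D.lv (f i)) x = D.cl (f i)) :
    ∀ k : ℕ, i + k ≤ n → |D.ln (f i) x - D.ln (f (i + k)) x| ≤ k * (η + 9 * Q) := by
  intro k
  induction k with
  | zero => intro _; simp
  | succ k ih =>
    intro hik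
    have h1 := ih (by omega)
    have h2 := ch_pos hf hx k (by omega)
    obtain ⟨_, _, _, ⟨y, hy1, _, hy3⟩, hs⟩ := hf (i + k) (by omega)
    have h4 := cell_L hy1
    have h5 : |x - y| ≤ 9 / 2 ^ D.lv (f (i + k)) := by
      have e1 : (9 : ℝ) / 2 ^ D.lv (f (i + k)) =
        7 / 2 ^ D.lv (f (i + k)) + 2 * (1 / 2 ^ D.lv (f (i + k))) := by ring
      have e2 : (0 : ℝ) < 1 / 2 ^ D.lv (f (i + k)) := by positivity
      rw [e1]
      rw [abs_le] at *
      constructor <;> linarith [h2.1, h2.2, h4.1, h4.2]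
    have h7 : |(D.sl (f (i + k)) - D.sl (f (i + k + 1))) * (x - y)| ≤ 9 * Q := by
      rw [abs_mul]
      calc |D.sl (f (i + k)) - D.sl (f (i + k + 1))| * |x - y| ≤
          (Q * 2 ^ D.lv (f (i + k))) * (9 / 2 ^ D.lv (f (i + k))) :=
            mul_le_mul hs.le h5 (abs_nonneg _) (by positivity)
        _ = 9 * Q := by field_simp
    have h8 : |D.ln (f (i + k)) x - D.ln (f (i + k + 1)) x| ≤ η + 9 * Q := by
      rw [ln_sub D _ _ x y]
      exact (abs_add_le _ _).trans (add_le_add hy3 h7)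
    have h9 : i + (k + 1) = i + k + 1 := by ring
    rw [h9]
    push_cast
    have h10 := abs_sub_le (D.ln (f i) x) (D.ln (f (i + k)) x) (D.ln (f (i + k + 1)) x)
    linarith

end chain

/-- volume of a curved tube over a measurable set -/
theorem vol_tube {V : Set ℝ} (hV : MeasurableSet V) {g : ℝ → ℝ} (hg : Measurable g) {B : ℝ} :
    volume {z : ℝ × ℝ | z.1 ∈ V ∧ |z.2 - g z.1| ≤ B} = ENNReal.ofReal (2 * B) * volume V := by
  have hm : MeasurableSet {z : ℝ × ℝ | z.1 ∈ V ∧ |z.2 - g z.1| ≤ B} := by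
    have h0 : Measurable fun z : ℝ × ℝ => |z.2 - g z.1| := by fun_prop
    exact MeasurableSet.inter (measurable_fst hV) (measurableSet_le h0 measurable_const)
  rw [Measure.volume_eq_prod, Measure.prod_apply hm]
  have h1 : ∀ x : ℝ, volume (Prod.mk x ⁻¹' {z : ℝ × ℝ | z.1 ∈ V ∧ |z.2 - g z.1| ≤ B}) =
      V.indicator (fun _ => ENNReal.ofReal (2 * B)) x := by
    intro x
    by_cases hx : x ∈ V
    · rw [Set.indicator_of_mem hx]
      have : (Prod.mk x ⁻¹' {z : ℝ × ℝ | z.1 ∈ V ∧ |z.2 - g z.1| ≤ B}) =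
          Set.Icc (g x - B) (g x + B) := by
        ext y
        simp only [mem_preimage, mem_ofPred_eq, hx, true_and, mem_Icc, abs_le]
        constructor <;> intro h <;> constructor <;> linarith [h.1, h.2]
      rw [this, Real.volume_Icc]
      congr 1
      ring
    · rw [Set.indicator_of_notMem hx]
      have : (Prod.mk x ⁻¹' {z : ℝ × ℝ | z.1 ∈ V ∧ |z.2 - g z.1| ≤ B}) = ∅ := by
        ext y
        simp [hx]
      rw [this, measure_empty]
  simp_rw [h1]
  rw [lintegral_indicator hV, setLIntegral_const]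

theorem meas_q (τ : ℝ) (j : ℕ) : Measurable (fun x : ℝ => T.q τ j x) := by
  unfold T.q
  exact Int.measurable_floor.comp (measurable_const.mul (measurable_id.sub_const τ))

theorem meas_V (hu : Measurable u) (a b : ℝ) (t : ι × ℕ × ℤ) :
    MeasurableSet (D.V u τ A a b t) := by
  unfold TD.V
  apply MeasurableSet.inter
  · exact (meas_q τ t.2.1) (MeasurableSet.of_discrete (s := {t.2.2}))
  · have h0 : Measurable fun x : ℝ => u (x, a + b * x) := hu.comp (by fun_prop)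
    have h1 : Measurable fun x : ℝ => |u (x, a + b * x) - D.s t.1| :=
      (continuous_abs.measurable).comp (h0.sub_const _)
    exact measurableSet_le h1 measurable_const

/-- density of the sets `V` -/
theorem vol_V (H : Hyp D u τ e A h κ Q η Y M1 N6 N7 w d) (a b : ℝ) (p : P)
    (hab : ∀ x, T.q τ (D.lv p) x = D.cl p → h + |D.ln p x - (a + b * x)| ≤ Y) :
    ENNReal.ofReal (κ / 2 ^ D.lv p) ≤ volume (D.V u τ A a b (D.tr p, D.lv p, D.cl p)) := by
  obtain ⟨b', B, hB, hd⟩ := H.dens p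
  have hsub : D.E p ∩ {z : ℝ × ℝ | |z.2 - b' - D.sl p * z.1| ≤ B} ⊆
      {z : ℝ × ℝ | z.1 ∈ D.V u τ A a b (D.tr p, D.lv p, D.cl p) ∧
        |z.2 - (b' + D.sl p * z.1)| ≤ B} := by
    rintro z ⟨hz, hz2⟩
    have hc := H.cell p z hz
    refine ⟨⟨hc, ?_⟩, ?_⟩
    · have h1 := H.slope p z hz
      have h2 := H.line p z hz
      have h3 := hab z.1 hc
      have h4 := H.lip z.1 (a + b * z.1) z.2
      have h5 : |a + b * z.1 - z.2| ≤ Y := by
        have : a + b * z.1 - z.2 = -(z.2 - D.ln p z.1) - (D.ln p z.1 - (a + b * z.1)) := by ring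
        rw [this]
        refine (abs_sub _ _).trans ?_
        rw [abs_neg]
        linarith
      have h6 : |u (z.1, a + b * z.1) - u (z.1, z.2)| ≤ 1 :=
        h4.trans ((mul_le_mul_of_nonneg_left h5 H.e_nonneg).trans H.eY)
      have h7 : (1 : ℝ) ≤ 2 ^ D.lv p := one_le_pow₀ (by norm_num)
      have h8 : u (z.1, a + b * z.1) - D.s (D.tr p) =
        (u (z.1, a + b * z.1) - u (z.1, z.2)) + (u z - D.sl p) := by
        rw [show u z = u (z.1, z.2) from rfl, TD.sl]; ring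
      show |u (z.1, a + b * z.1) - D.s (D.tr p)| ≤ (A + 1) * 2 ^ D.lv p
      rw [h8]
      refine (abs_add_le _ _).trans ?_
      nlinarith [h6, h1, h7]
    · have : z.2 - (b' + D.sl p * z.1) = z.2 - b' - D.sl p * z.1 := by ring
      rw [this]
      exact hz2
  have h1 := hd.trans (measure_mono hsub)
  have hg : Measurable fun x : ℝ => b' + D.sl p * x := by fun_prop
  rw [vol_tube (g := fun x => b' + D.sl p * x) (meas_V H.meas_u a b _) hg,
    ENNReal.ofReal_mul (by linarith)] at h1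
  exact (ENNReal.mul_le_mul_iff_right (by
    rw [Ne, ENNReal.ofReal_eq_zero, not_le]; linarith) ENNReal.ofReal_ne_top).1 h1

/-- lower bound of the volume of `E p` -/
theorem vol_E (H : Hyp D u τ e A h κ Q η Y M1 N6 N7 w d) (p : P) :
    ENNReal.ofReal (κ / 2 ^ D.lv p) ≤ volume (D.E p) := by
  obtain ⟨b', B, hB, hd⟩ := H.dens p
  refine le_trans ?_ (hd.trans (measure_mono inter_subset_left))
  apply ENNReal.ofReal_le_ofReal
  have : 0 < κ / 2 ^ D.lv p := div_pos H.κ_pos (by positivity)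
  nlinarith

theorem Y_nonneg (H : Hyp D u τ e A h κ Q η Y M1 N6 N7 w d) : 0 ≤ Y := by
  have h1 := H.Y_ge
  have h2 := H.h_nonneg
  have h3 := H.η_nonneg
  have h4 := H.Q_one
  have : 0 ≤ ((d : ℝ) + 1) * (η + 9 * Q) := by positivity
  linarith

end Vale.Agent.P112.H818
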