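import Vale.Agent.P112.H818.Dep1

/-!
# [DEPTH], part 2: the points below long chains
-/

open MeasureTheory Set
open scoped ENNReal

namespace Vale.Agent.P112.H818

variable {P ι : Type} {D : TD P ι} {u : ℝ × ℝ → ℝ} {τ e A h κ Q η Y : ℝ} {M1 N6 N7 w d : ℕ}

/-- the one dimensional input (helper141) -/
def StDepthM (K : ℕ) : Prop := ∀ (P : Type) (F : Finset P) (lv : P → ℕ)
  (cl : P → ℤ) (V : P → Set ℝ) (τ δ : ℝ) (M d J0 : ℕ) (c0 : ℤ), 0 < δ → δ ≤ 1 → 1 ≤ M → 1 ≤ d →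
  (∀ q ∈ F, MeasurableSet (V q)) → (∀ q ∈ F, ∀ x ∈ V q, T.q τ (lv q) x = cl q) →
  (∀ q ∈ F, ENNReal.ofReal (δ / 2 ^ lv q) ≤ volume (V q)) →
  (∀ x, ∀ G : Finset P, G ⊆ F → (∀ q ∈ G, x ∈ V q) → G.card ≤ M) →
  (∀ q ∈ F, J0 ≤ lv q ∧ ∃ x, |T.q τ (lv q) x - cl q| ≤ 8 ∧ |T.q τ J0 x - c0| ≤ 8) →
  volume {x | d ≤ ((F.filter (fun q => |T.q τ (lv q) x - cl q| ≤ 8)).image lv).card} ≤
    ENNReal.ofReal (K * (2 : ℝ) ^ (-(δ * d / (K * M))) / 2 ^ J0)

/-- tiles which are seen by the line of `t` in a shell -/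
structure TD.Good (D : TD P ι) (τ A h Q Y : ℝ) (t p : P) : Prop where
  lv : D.lv t ≤ D.lv p
  lo : 2 * (A + 1) * 2 ^ D.lv p ≤ |D.sl p - D.sl t|
  hi : |D.sl p - D.sl t| ≤ 5 / 4 * Q * 2 ^ D.lv p
  pos : ∀ x, T.q τ (D.lv p) x = D.cl p → |x - D.L τ t| ≤ 7 / 2 ^ D.lv t
  off : ∀ x, T.q τ (D.lv p) x = D.cl p → 2 * (h + |D.ln p x - D.ln t x|) ≤ Y

open Classical in
/-- the one dimensional objects -/
noncomputable def TD.FF [Fintype P] (D : TD P ι) (τ A h Q Y : ℝ) (t : P) : Finset (ι × ℕ × ℤ) :=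
  (Finset.univ.filter (fun p => D.Good τ A h Q Y t p)).image (fun p => (D.tr p, D.lv p, D.cl p))

theorem mem_FF [Fintype P] {t : P} {q : ι × ℕ × ℤ} : q ∈ D.FF τ A h Q Y t ↔
    ∃ p, D.Good τ A h Q Y t p ∧ (D.tr p, D.lv p, D.cl p) = q := by
  classical
  simp [TD.FF]

theorem FF_ovl [Fintype P] (H : Hyp D u τ e A h κ Q η Y M1 N6 N7 w d) (t : P) (x : ℝ)
    (G : Finset (ι × ℕ × ℤ)) (hG : G ⊆ D.FF τ A h Q Y t)
    (hx : ∀ q ∈ G, x ∈ D.V u τ A (D.c t) (D.sl t) q) : G.card ≤ w + 1 := by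
  classical
  have hA := H.A_nonneg
  have hQ := H.Q_one
  set U0 := u (x, D.c t + D.sl t * x) with hU0
  -- the two bounds
  have key : ∀ q ∈ G, (A + 1) * 2 ^ q.2.1 ≤ |U0 - D.sl t| ∧
      |U0 - D.sl t| ≤ 15 / 8 * Q * 2 ^ q.2.1 := by
    intro q hq
    obtain ⟨p, hp, rfl⟩ := mem_FF.1 (hG hq)
    have h1 := (hx _ hq).2
    simp only at h1
    rw [← hU0] at h1
    have h2 := hp.lo
    have h3 := hp.hi
    have h1' : |U0 - D.sl p| ≤ (A + 1) * 2 ^ D.lv p := h1
    constructor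
    · have h4 := abs_sub_le (D.sl p) U0 (D.sl t)
      rw [abs_sub_comm (D.sl p) U0] at h4
      show (A + 1) * 2 ^ D.lv p ≤ _
      linarith
    · have h4 := abs_sub_le U0 (D.sl p) (D.sl t)
      show _ ≤ 15 / 8 * Q * 2 ^ D.lv p
      linarith
  have hinj : Set.InjOn (fun q : ι × ℕ × ℤ => q.2.1) (G : Set (ι × ℕ × ℤ)) := by
    intro q hq q' hq' hqq
    obtain ⟨p, hp, rfl⟩ := mem_FF.1 (hG hq)
    obtain ⟨p', hp', rfl⟩ := mem_FF.1 (hG hq')
    simp only at hqq
    have hc1 : T.q τ (D.lv p) x = D.cl p := (hx _ hq).1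
    have hc2 : T.q τ (D.lv p') x = D.cl p' := (hx _ hq').1
    have hcc : D.cl p = D.cl p' := by rw [← hc1, ← hc2, hqq]
    by_cases htr : D.tr p = D.tr p'
    · rw [htr, hqq, hcc]
    · exfalso
      have hm : D.Meet τ Y p p' := by
        refine ⟨x, hc1, (cell_L hc2).trans ?_, ?_⟩
        · gcongr; norm_num
        · have e1 := hp.off x hc1
          have e2 := hp'.off x hc2
          have e3 := abs_sub_le (D.ln p x) (D.ln t x) (D.ln p' x)
          rw [abs_sub_comm (D.ln t x)] at e3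
          have e4 := H.h_nonneg
          linarith
      have h1 := H.sep p p' htr hqq.symm.le hm
      have h2 : |U0 - D.sl p| ≤ (A + 1) * 2 ^ D.lv p := (hx _ hq).2
      have h3 : |U0 - D.sl p'| ≤ (A + 1) * 2 ^ D.lv p' := (hx _ hq').2
      rw [← hqq] at h3
      have h4 := abs_sub_le (D.sl p) U0 (D.sl p')
      rw [abs_sub_comm (D.sl p) U0] at h4
      have h5 : 0 < (A + 1) * 2 ^ D.lv p := by positivity
      linarith
  rw [← Finset.card_image_of_injOn hinj]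
  rcases G.eq_empty_or_nonempty with rfl | hne
  · simp
  obtain ⟨q0, hq0, hmin⟩ := G.exists_min_image (fun q => q.2.1) hne
  have hsub : G.image (fun q => q.2.1) ⊆ Finset.Icc q0.2.1 (q0.2.1 + w) := by
    intro j hj
    obtain ⟨q, hq, rfl⟩ := Finset.mem_image.1 hj
    rw [Finset.mem_Icc]
    refine ⟨hmin q hq, ?_⟩
    by_contra hcon
    push Not at hcon
    have h1 := (key q hq).1
    have h2 := (key q0 hq0).2
    have h3 : (2 : ℝ) ^ (q0.2.1 + w + 1) ≤ 2 ^ q.2.1 :=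
      pow_le_pow_right₀ (by norm_num) (by omega)
    rw [pow_succ, pow_add] at h3
    have h4 := H.hw
    have h5 : (0 : ℝ) < 2 ^ q0.2.1 := by positivity
    have h6 : (2 : ℝ) ^ q.2.1 ≤ (A + 1) * 2 ^ q.2.1 := by
      have : (0 : ℝ) < 2 ^ q.2.1 := by positivity
      nlinarith
    have h7 : 2 * Q * 2 ^ q0.2.1 ≤ 2 ^ w * 2 ^ q0.2.1 := mul_le_mul_of_nonneg_right h4 h5.le
    have h8 : 0 < Q * 2 ^ q0.2.1 := by positivity
    nlinarith
  have := Finset.card_le_card hsub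
  rw [Nat.card_Icc] at this
  omega

theorem good_of_chain (H : Hyp D u τ e A h κ Q η Y M1 N6 N7 w d) {n : ℕ} (hn : n ≤ d) {f : ℕ → P}
    (hf : ∀ i < n, D.Dom τ η Q (f i) (f (i + 1))) {i : ℕ} (hi : i < n)
    (hlo : 2 * (A + 1) * 2 ^ D.lv (f i) ≤ |D.sl (f i) - D.sl (f n)|) :
    D.Good τ A h Q Y (f n) (f i) := by
  have hQ : 0 ≤ Q := by linarith [H.Q_one]
  have hin : i + (n - i) = n := by omega
  constructor
  · have := ch_lt hf (n - i) i (by omega) (by omega)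
    rw [hin] at this
    exact this.le
  · exact hlo
  · have := ch_slope hf hQ (n - i) i (by omega)
    rwa [hin] at this
  · intro x hx
    have := ch_pos hf hx (n - i) (by omega)
    rwa [hin] at this
  · intro x hx
    have h1 := ch_ln hf hQ hx (n - i) (by omega)
    rw [hin] at h1
    have h2 := H.Y_ge
    have h3 : ((n - i : ℕ) : ℝ) ≤ (d : ℝ) := by
      exact_mod_cast (by omega : n - i ≤ d)
    have h4 : 0 ≤ η + 9 * Q := by linarith [H.η_nonneg]
    have h5 := mul_le_mul_of_nonneg_right h3 h4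
    nlinarith

theorem one_good (H : Hyp D u τ e A h κ Q η Y M1 N6 N7 w d) {n : ℕ} (hn : n ≤ d) {f : ℕ → P}
    (hf : ∀ i < n, D.Dom τ η Q (f i) (f (i + 1))) {i : ℕ} (hi : i + 1 < n) :
    D.Good τ A h Q Y (f n) (f i) ∨ D.Good τ A h Q Y (f n) (f (i + 1)) := by
  by_contra hcon
  rw [not_or] at hcon
  have h1 : ¬ 2 * (A + 1) * 2 ^ D.lv (f i) ≤ |D.sl (f i) - D.sl (f n)| := fun hh =>
    hcon.1 (good_of_chain H hn hf (by omega) hh)
  have h2 : ¬ 2 * (A + 1) * 2 ^ D.lv (f (i + 1)) ≤ |D.sl (f (i + 1)) - D.sl (f n)| := fun hh =>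
    hcon.2 (good_of_chain H hn hf hi hh)
  push Not at h1 h2
  obtain ⟨h3, _, h4, ⟨x, hx1, hx2, hx3⟩, _⟩ := hf i (by omega)
  have hY : η ≤ Y := by
    have a1 := H.Y_ge
    have a2 := H.h_nonneg
    have a3 := H.η_nonneg
    have a4 := H.Q_one
    have a5 : (0 : ℝ) ≤ d := Nat.cast_nonneg d
    nlinarith [mul_nonneg a5 a3, mul_nonneg a5 (by linarith : (0 : ℝ) ≤ Q)]
  have h5 := H.sep (f i) (f (i + 1)) h4 h3.le ⟨x, hx1, hx2, hx3.trans hY⟩
  have h6 := abs_sub_le (D.sl (f i)) (D.sl (f n)) (D.sl (f (i + 1)))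
  rw [abs_sub_comm (D.sl (f n))] at h6
  have h7 : (2 : ℝ) ^ D.lv (f (i + 1)) ≤ 2 ^ D.lv (f i) :=
    pow_le_pow_right₀ (by norm_num) h3.le
  have h8 : (A + 1) * 2 ^ D.lv (f (i + 1)) ≤ (A + 1) * 2 ^ D.lv (f i) :=
    mul_le_mul_of_nonneg_left h7 (by linarith [H.A_nonneg])
  linarith

/-- below a chain of length `2 m` the line of the last tile sees `m` levels -/
theorem count_levels [Fintype P] {m : ℕ} (H : Hyp D u τ e A h κ Q η Y M1 N6 N7 w (2 * m))
    {f : ℕ → P} (hf : ∀ i < 2 * m, D.Dom τ η Q (f i) (f (i + 1))) {x : ℝ}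
    (hx : T.q τ (D.lv (f 0)) x = D.cl (f 0)) :
    m ≤ (((D.FF τ A h Q Y (f (2 * m))).filter
      (fun q => |T.q τ q.2.1 x - q.2.2| ≤ 8)).image (fun q => q.2.1)).card := by
  classical
  have h1 : ∀ r, ∃ g, r < m → (g = 2 * r ∨ g = 2 * r + 1) ∧
      D.Good τ A h Q Y (f (2 * m)) (f g) := by
    intro r
    by_cases hr : r < m
    · by_cases hr2 : 2 * r + 1 < 2 * m
      · rcases one_good H le_rfl hf hr2 with h | h
        · exact ⟨2 * r, fun _ => ⟨Or.inl rfl, h⟩⟩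
        · exact ⟨2 * r + 1, fun _ => ⟨Or.inr rfl, h⟩⟩
      · omega
    · exact ⟨0, fun h => absurd h hr⟩
  choose g hg using h1
  have hlt : ∀ a b, a < b → b ≤ 2 * m → D.lv (f b) < D.lv (f a) := by
    intro a b hab hb
    have := ch_lt hf (b - a) a (by omega) (by omega)
    rwa [show a + (b - a) = b by omega] at this
  have h2 : (Finset.range m).card ≤ (((D.FF τ A h Q Y (f (2 * m))).filter
      (fun q => |T.q τ q.2.1 x - q.2.2| ≤ 8)).image (fun q => q.2.1)).card := by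
    apply Finset.card_le_card_of_injOn (fun r => D.lv (f (g r)))
    · intro r hr
      have hr' : r < m := by simpa using hr
      obtain ⟨hgr, hgood⟩ := hg r hr'
      simp only [Finset.coe_image, Finset.coe_filter, mem_image, mem_ofPred_eq]
      refine ⟨(D.tr (f (g r)), D.lv (f (g r)), D.cl (f (g r))),
        ⟨mem_FF.2 ⟨f (g r), hgood, rfl⟩, ?_⟩, rfl⟩
      apply L_q
      have := ch_pos hf hx (g r) (by omega)
      rwa [Nat.zero_add] at this
    · intro r hr r' hr' hrr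
      have hr1 : r < m := by simpa using hr
      have hr2 : r' < m := by simpa using hr'
      obtain ⟨hg1, _⟩ := hg r hr1
      obtain ⟨hg2, _⟩ := hg r' hr2
      simp only at hrr
      rcases lt_trichotomy r r' with hlt' | heq | hgt'
      · have := hlt (g r) (g r') (by omega) (by omega)
        omega
      · exact heq
      · have := hlt (g r') (g r) (by omega) (by omega)
        omega
  simpa using h2

/-- the bad part of the line of `t` -/
def TD.Bad [Fintype P] (D : TD P ι) (τ A h Q Y : ℝ) (m : ℕ) (t : P) : Set ℝ :=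
  {x | m ≤ (((D.FF τ A h Q Y t).filter
      (fun q => |T.q τ q.2.1 x - q.2.2| ≤ 8)).image (fun q => q.2.1)).card}

theorem vol_Bad [Fintype P] {K : ℕ} (hK : StDepthM K) {m : ℕ} (hm : 0 < m)
    (H : Hyp D u τ e A h κ Q η Y M1 N6 N7 w d) (t : P) :
    volume (D.Bad τ A h Q Y m t) ≤
      ENNReal.ofReal (K * (2 : ℝ) ^ (-(κ * m / (K * (w + 1)))) / 2 ^ D.lv t) := by
  classical
  have h1 := hK (ι × ℕ × ℤ) (D.FF τ A h Q Y t) (fun q => q.2.1) (fun q => q.2.2)
    (fun q => D.V u τ A (D.c t) (D.sl t) q) τ κ (w + 1) m (D.lv t) (D.cl t) H.κ_pos H.κ_le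
    (by omega) hm (fun q _ => meas_V H.meas_u _ _ q) (fun q _ x hx => hx.1) ?_ ?_ ?_
  · simpa [TD.Bad] using h1
  · intro q hq
    obtain ⟨p, hp, rfl⟩ := mem_FF.1 hq
    apply vol_V H
    intro x hx
    have h2 := hp.off x hx
    have h3 : D.ln t x = D.c t + D.sl t * x := rfl
    rw [h3] at h2
    have h4 := H.h_nonneg
    have h5 := abs_nonneg (D.ln p x - (D.c t + D.sl t * x))
    linarith
  · intro x G hG hx
    exact FF_ovl H t x G hG hx
  · intro q hq
    obtain ⟨p, hp, rfl⟩ := mem_FF.1 hq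
    refine ⟨hp.lv, D.L τ p, ?_, ?_⟩
    · simp only
      rw [q_L]
      simp
    · exact L_q (hp.pos _ (q_L D τ p))

theorem vol_tube_le {V : Set ℝ} {g : ℝ → ℝ} (hg : Measurable g) {B : ℝ} :
    volume {z : ℝ × ℝ | z.1 ∈ V ∧ |z.2 - g z.1| ≤ B} ≤ ENNReal.ofReal (2 * B) * volume V := by
  rw [← measure_toMeasurable V, ← vol_tube (measurableSet_toMeasurable volume V) hg]
  apply measure_mono
  rintro z ⟨h1, h2⟩
  exact ⟨subset_toMeasurable volume V h1, h2⟩

/-- the points of tiles below long chains are in the bad parts of tubes -/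
theorem rest_sub [Fintype P] {m : ℕ} (H : Hyp D u τ e A h κ Q η Y M1 N6 N7 w (2 * m)) {p : P}
    (hp : D.Ch τ η Q (2 * m) p) :
    D.E p ⊆ ⋃ t, {z : ℝ × ℝ | z.1 ∈ D.Bad τ A h Q Y m t ∧
      |z.2 - (D.c t + D.sl t * z.1)| ≤ Y} := by
  intro z hz
  obtain ⟨f, rfl, hf⟩ := ch_fun hp
  have hc := H.cell _ z hz
  refine mem_iUnion.2 ⟨f (2 * m), count_levels H hf hc, ?_⟩
  have h1 := ch_ln hf (by linarith [H.Q_one]) hc (2 * m) (by omega)
  rw [Nat.zero_add] at h1
  have h2 := H.line _ z hz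
  have h3 := H.Y_ge
  have h4 : D.ln (f (2 * m)) z.1 = D.c (f (2 * m)) + D.sl (f (2 * m)) * z.1 := rfl
  rw [← h4]
  have h5 := abs_sub_le z.2 (D.ln (f 0) z.1) (D.ln (f (2 * m)) z.1)
  have h6 : 0 ≤ η + 9 * Q := by linarith [H.η_nonneg, H.Q_one]
  have h7 : (0 : ℝ) ≤ (((2 * m : ℕ) : ℝ)) * (η + 9 * Q) := by positivity
  have h8 := H.h_nonneg
  nlinarith

/-- the sum of the volumes -/
theorem sum_vol_E [Fintype P] (H : Hyp D u τ e A h κ Q η Y M1 N6 N7 w d) :
    ∑ p, volume (D.E p) ≤ M1 * volume (⋃ p, D.E p) := by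
  classical
  have hU : MeasurableSet (⋃ p, D.E p) := MeasurableSet.iUnion H.meas
  calc ∑ p, volume (D.E p) = ∑ p, ∫⁻ z, (D.E p).indicator 1 z := by
        refine Finset.sum_congr rfl fun p _ => ?_
        rw [lintegral_indicator_one (H.meas p)]
    _ = ∫⁻ z, ∑ p, (D.E p).indicator 1 z := by
        rw [lintegral_finsetSum]
        intro p _
        exact measurable_one.indicator (H.meas p)
    _ ≤ ∫⁻ z, M1 * (⋃ p, D.E p).indicator 1 z := by
        apply lintegral_mono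
        intro z
        have h1 : ∑ p, (D.E p).indicator (1 : ℝ × ℝ → ℝ≥0∞) z =
            ((Finset.univ.filter (fun p => z ∈ D.E p)).card : ℝ≥0∞) := by
          rw [Finset.card_filter, Nat.cast_sum]
          refine Finset.sum_congr rfl fun p _ => ?_
          by_cases hz : z ∈ D.E p
          · simp [hz]
          · simp [hz]
        show ∑ p, (D.E p).indicator (1 : ℝ × ℝ → ℝ≥0∞) z ≤
          M1 * (⋃ p, D.E p).indicator (1 : ℝ × ℝ → ℝ≥0∞) z
        rw [h1]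
        by_cases hz : z ∈ ⋃ p, D.E p
        · rw [Set.indicator_of_mem hz]
          have h2 := H.ovl z (Finset.univ.filter (fun p => z ∈ D.E p)) (by simp)
          simp only [Pi.one_apply, mul_one]
          exact_mod_cast h2
        · rw [Set.indicator_of_notMem hz]
          have : (Finset.univ.filter (fun p => z ∈ D.E p)) = ∅ := by
            rw [Finset.filter_eq_empty_iff]
            intro p _ hp
            exact hz (mem_iUnion.2 ⟨p, hp⟩)
          rw [this]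
          simp
    _ = M1 * volume (⋃ p, D.E p) := by
        rw [lintegral_const_mul _ (measurable_one.indicator hU), lintegral_indicator_one hU]

/-- the volume of the rest -/
theorem vol_rest [Fintype P] {K : ℕ} (hK : StDepthM K) {m : ℕ} (hm : 0 < m)
    (H : Hyp D u τ e A h κ Q η Y M1 N6 N7 w (2 * m)) (R : Finset P)
    (hR : ∀ p ∈ R, D.Ch τ η Q (2 * m) p) :
    volume (⋃ p ∈ R, D.E p) ≤ ENNReal.ofReal (2 * K * M1 * Y / κ *
      (2 : ℝ) ^ (-(κ * m / (K * (w + 1))))) * volume (⋃ p, D.E p) := by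
  have hY := Y_nonneg H
  have hκ := H.κ_pos
  set G : ℝ := (2 : ℝ) ^ (-(κ * m / (K * (w + 1)))) with hG
  have hG0 : 0 < G := by positivity
  have h1 : (⋃ p ∈ R, D.E p) ⊆ ⋃ t, {z : ℝ × ℝ | z.1 ∈ D.Bad τ A h Q Y m t ∧
      |z.2 - (D.c t + D.sl t * z.1)| ≤ Y} := by
    intro z hz
    simp only [mem_iUnion, exists_prop] at hz
    obtain ⟨p, hp, hz⟩ := hz
    exact rest_sub H (hR p hp) hz
  have h2 : ∀ t : P, volume {z : ℝ × ℝ | z.1 ∈ D.Bad τ A h Q Y m t ∧
      |z.2 - (D.c t + D.sl t * z.1)| ≤ Y} ≤ ENNReal.ofReal (2 * K * Y / κ * G) *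
        volume (D.E t) := by
    intro t
    have hg : Measurable fun x : ℝ => D.c t + D.sl t * x := by fun_prop
    calc volume {z : ℝ × ℝ | z.1 ∈ D.Bad τ A h Q Y m t ∧
        |z.2 - (D.c t + D.sl t * z.1)| ≤ Y} ≤
        ENNReal.ofReal (2 * Y) * volume (D.Bad τ A h Q Y m t) :=
          vol_tube_le (g := fun x => D.c t + D.sl t * x) hg
      _ ≤ ENNReal.ofReal (2 * Y) * ENNReal.ofReal (K * G / 2 ^ D.lv t) := by
          gcongr
          exact vol_Bad hK hm H t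
      _ = ENNReal.ofReal (2 * K * Y / κ * G) * ENNReal.ofReal (κ / 2 ^ D.lv t) := by
          rw [← ENNReal.ofReal_mul (by positivity), ← ENNReal.ofReal_mul (by positivity)]
          congr 1
          field_simp
      _ ≤ _ := by
          gcongr
          exact vol_E H t
  calc volume (⋃ p ∈ R, D.E p) ≤ volume (⋃ t, {z : ℝ × ℝ | z.1 ∈ D.Bad τ A h Q Y m t ∧
      |z.2 - (D.c t + D.sl t * z.1)| ≤ Y}) := measure_mono h1
    _ ≤ ∑ t, volume {z : ℝ × ℝ | z.1 ∈ D.Bad τ A h Q Y m t ∧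
      |z.2 - (D.c t + D.sl t * z.1)| ≤ Y} := by
        have := measure_iUnion_le (μ := volume) (fun t => {z : ℝ × ℝ | z.1 ∈ D.Bad τ A h Q Y m t ∧
          |z.2 - (D.c t + D.sl t * z.1)| ≤ Y})
        rwa [tsum_fintype] at this
    _ ≤ ∑ t, ENNReal.ofReal (2 * K * Y / κ * G) * volume (D.E t) :=
        Finset.sum_le_sum fun t _ => h2 t
    _ = ENNReal.ofReal (2 * K * Y / κ * G) * ∑ t, volume (D.E t) := by
        rw [Finset.mul_sum]
    _ ≤ ENNReal.ofReal (2 * K * Y / κ * G) * (M1 * volume (⋃ p, D.E p)) := by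
        gcongr
        exact sum_vol_E H
    _ = _ := by
        rw [← mul_assoc]
        congr 1
        rw [← ENNReal.ofReal_natCast M1, ← ENNReal.ofReal_mul (by positivity)]
        congr 1
        ring

end Vale.Agent.P112.H818
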